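import Vale.Agent.P083.MatrixUnits

/-!
MF algebras embed unitally in the norm ultrapower of every algebra with two Cuntz isometries.
-/

namespace Vale.Agent.Results.P083.MFAlgebras

open Filter Topology
open scoped ComplexOrder

theorem result {A B : Type} [CStarAlgebra A] [CStarAlgebra B] [Nontrivial B]
    (s₁ s₂ : B) (h₁ : star s₁ * s₁ = 1) (h₂ : star s₂ * s₂ = 1)
    (h : s₁ * star s₁ + s₂ * star s₂ = 1)
    (k : ℕ → ℕ) (φ : ∀ j, A → CStarMatrix (Fin (k j + 1)) (Fin (k j + 1)) ℂ)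
    (hadd : ∀ a b, Tendsto (fun j => ‖φ j (a + b) - (φ j a + φ j b)‖) atTop (𝓝 0))
    (hmul : ∀ a b, Tendsto (fun j => ‖φ j (a * b) - φ j a * φ j b‖) atTop (𝓝 0))
    (hsmul : ∀ (c : ℂ) a, Tendsto (fun j => ‖φ j (c • a) - c • φ j a‖) atTop (𝓝 0))
    (hstar : ∀ a, Tendsto (fun j => ‖φ j (star a) - star (φ j a)‖) atTop (𝓝 0))
    (hone : Tendsto (fun j => ‖φ j 1 - 1‖) atTop (𝓝 0))
    (hnorm : ∀ a, Tendsto (fun j => ‖φ j a‖) atTop (𝓝 ‖a‖)) :
    ∃ ψ : A → ℕ → B, (∀ a, BddAbove (Set.range fun j => ‖ψ a j‖)) ∧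
      ∀ ω : Ultrafilter ℕ, (ω : Filter ℕ) ≤ cofinite →
        (∀ a b, Tendsto (fun j => ‖ψ (a + b) j - (ψ a j + ψ b j)‖) ω (𝓝 0)) ∧
        (∀ a b, Tendsto (fun j => ‖ψ (a * b) j - ψ a j * ψ b j‖) ω (𝓝 0)) ∧
        (∀ (c : ℂ) a, Tendsto (fun j => ‖ψ (c • a) j - c • ψ a j‖) ω (𝓝 0)) ∧
        (∀ a, Tendsto (fun j => ‖ψ (star a) j - star (ψ a j)‖) ω (𝓝 0)) ∧
        Tendsto (fun j => ‖ψ 1 j - 1‖) ω (𝓝 0) ∧
        ∀ a, Tendsto (fun j => ‖ψ a j‖) ω (𝓝 ‖a‖) := by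
  choose π hπ using fun j => Vale.Agent.P083.exists_matrix_embedding s₁ s₂ h₁ h₂ h (k j)
  refine ⟨fun a j => π j (φ j a), fun a => ?_, fun ω hω => ?_⟩
  · simp only [hπ]
    exact (hnorm a).bddAbove_range
  have hle : (ω : Filter ℕ) ≤ atTop := Nat.cofinite_eq_atTop ▸ hω
  refine ⟨fun a b => ?_, fun a b => ?_, fun c a => ?_, fun a => ?_, ?_, fun a => ?_⟩
  · simpa only [← map_add, ← map_sub, hπ] using (hadd a b).mono_left hle
  · simpa only [← map_mul, ← map_sub, hπ] using (hmul a b).mono_left hle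
  · simpa only [← map_smul, ← map_sub, hπ] using (hsmul c a).mono_left hle
  · simpa only [← map_star, ← map_sub, hπ] using (hstar a).mono_left hle
  · have h0 : ∀ j, ‖π j (φ j 1) - 1‖ = ‖φ j 1 - 1‖ := fun j => by
      rw [← map_one (π j), ← map_sub, hπ]
    simpa only [h0] using hone.mono_left hle
  · simpa only [hπ] using (hnorm a).mono_left hle

end Vale.Agent.Results.P083.MFAlgebras
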